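import Mathlib

namespace Vale.Agent.Lib.P209.H49

/-- A1. Multisets of size K containing the letter l at least T times are at most as many as
the multisets of size K - T. -/
theorem card_filter_count_ge_le (α : Type) [Fintype α] [DecidableEq α] (K T : ℕ) (l : α) :
    (Finset.univ.filter (fun s : Sym α K => T ≤ Multiset.count l s.1)).card ≤
      Fintype.card (Sym α (K - T)) := by
  classical
  rw [← Fintype.card_subtype]
  have hle : ∀ s : {s : Sym α K // T ≤ Multiset.count l s.1},
      Multiset.replicate T l ≤ (s.1.1 : Multiset α) := fun s =>
    Multiset.le_count_iff_replicate_le.mp s.2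
  refine Fintype.card_le_of_injective
    (fun s : {s : Sym α K // T ≤ Multiset.count l s.1} =>
      (⟨s.1.1 - Multiset.replicate T l, by
        rw [Multiset.card_sub (hle s), Multiset.card_replicate]
        have := s.1.2
        omega⟩ : Sym α (K - T))) ?_
  intro s s' h
  have h1 : (s.1.1 : Multiset α) - Multiset.replicate T l
      = (s'.1.1 : Multiset α) - Multiset.replicate T l := congrArg Subtype.val h
  have h2 : (s.1.1 : Multiset α) = s'.1.1 := by
    rw [← tsub_add_cancel_of_le (hle s), ← tsub_add_cancel_of_le (hle s'), h1]
  exact Subtype.ext (Subtype.ext h2)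

/-- A2. Union bound: the complement of the good set is the union over i of the filters
of A1. -/
theorem card_good_ge (α : Type) [Fintype α] [DecidableEq α] (K : ℕ) {ι : Type} [Fintype ι]
    (l : ι → α) (T : ι → ℕ) :
    Fintype.card (Sym α K) ≤
      Fintype.card {s : Sym α K // ∀ i, Multiset.count (l i) s.1 < T i} +
        ∑ i, Fintype.card (Sym α (K - T i)) := by
  classical
  have h1 : Fintype.card (Sym α K)
      = Fintype.card {s : Sym α K // ∀ i, Multiset.count (l i) s.1 < T i}
        + (Finset.univ.filter
            (fun s : Sym α K => ¬ ∀ i, Multiset.count (l i) s.1 < T i)).card := by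
    rw [Fintype.card_subtype, ← Finset.card_univ (α := Sym α K)]
    exact (Finset.card_filter_add_card_filter_not _).symm
  have h2 : (Finset.univ.filter
      (fun s : Sym α K => ¬ ∀ i, Multiset.count (l i) s.1 < T i)).card
      ≤ ∑ i, Fintype.card (Sym α (K - T i)) := by
    have hsub : (Finset.univ.filter
        (fun s : Sym α K => ¬ ∀ i, Multiset.count (l i) s.1 < T i))
        ⊆ (Finset.univ : Finset ι).biUnion (fun i =>
            Finset.univ.filter (fun s : Sym α K => T i ≤ Multiset.count (l i) s.1)) := by
      intro s hs
      rw [Finset.mem_filter] at hs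
      have hs2 := hs.2
      push Not at hs2
      obtain ⟨i, hi⟩ := hs2
      rw [Finset.mem_biUnion]
      exact ⟨i, Finset.mem_univ _, by rw [Finset.mem_filter]; exact ⟨Finset.mem_univ _, hi⟩⟩
    calc _ ≤ ((Finset.univ : Finset ι).biUnion (fun i =>
            Finset.univ.filter (fun s : Sym α K => T i ≤ Multiset.count (l i) s.1))).card :=
          Finset.card_le_card hsub
      _ ≤ ∑ i, (Finset.univ.filter
            (fun s : Sym α K => T i ≤ Multiset.count (l i) s.1)).card :=
          Finset.card_biUnion_le
      _ ≤ ∑ i, Fintype.card (Sym α (K - T i)) :=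
          Finset.sum_le_sum (fun i _ => card_filter_count_ge_le α K (T i) (l i))
  omega

end Vale.Agent.Lib.P209.H49
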